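import Mathlib

/-!
# Lemma R (helper749): a product inequality for two Hall conditions.

Used for P038 (Seymour's second neighbourhood conjecture).
-/

namespace Vale.Agent.P038.H749

open Finset
open scoped Classical

variable {V : Type*} [Fintype V]

/-! ## Gluing Hall conditions (F2, F2') -/

theorem hall_glue (le : V → V → Prop) (w : V → ℝ) (hw : ∀ x, 0 ≤ w x)
    {ι : Type*} (G : ι → V → Prop) (Γ : ι → V → Prop) (Γs : V → Prop)
    (hall : ∀ z, ∀ T : Finset V, (∀ u ∈ T, G z u) →
      ∑ u ∈ T, w u ≤ ∑ u' ∈ univ.filter (fun u' => Γ z u' ∧ ∃ u ∈ T, le u u'), w u')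
    (n : ℕ) (T : Finset V) (hn : T.card ≤ n)
    (Z : ι → Prop)
    (hT : ∀ u ∈ T, ∃ z, Z z ∧ G z u)
    (hF : ∀ z, Z z → ∀ u ∈ T, ∀ u', Γ z u' → le u u' → G z u ∧ Γs u') :
    ∑ u ∈ T, w u ≤ ∑ u' ∈ univ.filter (fun u' => Γs u' ∧ ∃ u ∈ T, le u u'), w u' := by
  induction n generalizing T with
  | zero =>
    have : T = ∅ := by
      apply Finset.card_eq_zero.mp; omega
    subst this
    simp
  | succ n ih =>
    by_cases hTe : T = ∅
    · subst hTe; simp
    obtain ⟨u0, hu0⟩ := Finset.nonempty_iff_ne_empty.mpr hTe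
    obtain ⟨z, hz, hGz⟩ := hT u0 hu0
    set T1 := T.filter (fun u => G z u) with hT1
    set T2 := T.filter (fun u => ¬ G z u) with hT2
    have hcard : T2.card ≤ n := by
      have : T2.card < T.card := by
        apply Finset.card_lt_card
        refine ⟨Finset.filter_subset _ _, fun h => ?_⟩
        have := h hu0
        simp only [hT2, mem_filter] at this
        exact this.2 hGz
      omega
    have h2 := ih T2 hcard (fun u hu => hT u (Finset.mem_filter.mp hu).1)
      (fun z' hz' u hu => hF z' hz' u (Finset.mem_filter.mp hu).1)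
    have h1 := hall z T1 (fun u hu => (Finset.mem_filter.mp hu).2)
    have hsum : ∑ u ∈ T, w u = ∑ u ∈ T1, w u + ∑ u ∈ T2, w u := by
      rw [hT1, hT2, Finset.sum_filter_add_sum_filter_not]
    rw [hsum]
    have hdisj : Disjoint (univ.filter (fun u' => Γ z u' ∧ ∃ u ∈ T1, le u u'))
        (univ.filter (fun u' => Γs u' ∧ ∃ u ∈ T2, le u u')) := by
      rw [Finset.disjoint_left]
      intro u' h1' h2'
      simp only [mem_filter, mem_univ, true_and] at h1' h2'
      obtain ⟨hΓ, _⟩ := h1'
      obtain ⟨_, u, hu, hle⟩ := h2'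
      have hu' := Finset.mem_filter.mp hu
      exact hu'.2 (hF z hz u hu'.1 u' hΓ hle).1
    calc ∑ u ∈ T1, w u + ∑ u ∈ T2, w u
        ≤ ∑ u' ∈ univ.filter (fun u' => Γ z u' ∧ ∃ u ∈ T1, le u u'), w u'
          + ∑ u' ∈ univ.filter (fun u' => Γs u' ∧ ∃ u ∈ T2, le u u'), w u' := add_le_add h1 h2
      _ = ∑ u' ∈ (univ.filter (fun u' => Γ z u' ∧ ∃ u ∈ T1, le u u')) ∪
            (univ.filter (fun u' => Γs u' ∧ ∃ u ∈ T2, le u u')), w u' := by
          rw [Finset.sum_union hdisj]
      _ ≤ _ := by
          apply Finset.sum_le_sum_of_subset_of_nonneg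
          · intro u' hu'
            simp only [mem_union, mem_filter, mem_univ, true_and] at hu' ⊢
            rcases hu' with ⟨hΓ, u, hu, hle⟩ | ⟨hs, u, hu, hle⟩
            · have hu' := Finset.mem_filter.mp hu
              exact ⟨(hF z hz u hu'.1 u' hΓ hle).2, u, hu'.1, hle⟩
            · exact ⟨hs, u, (Finset.mem_filter.mp hu).1, hle⟩
          · intro x _ _; exact hw x

/-! ## The rank function and F3 -/

/-- value of a cut -/
noncomputable def val (le : V → V → Prop) (p : V → ℝ) (Q L Y : Finset V) : ℝ :=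
  ∑ z ∈ Q.filter (fun z => ∃ y ∈ Y, le z y), p z + ∑ x ∈ L \ Y, p x

/-- the rank -/
noncomputable def Rk (le : V → V → Prop) (p : V → ℝ) (Q L : Finset V) : ℝ :=
  L.powerset.inf' ⟨∅, Finset.empty_mem_powerset L⟩ (fun Y => val le p Q L Y)

theorem Rk_le (le : V → V → Prop) (p : V → ℝ) (Q L Y : Finset V) (h : Y ⊆ L) :
    Rk le p Q L ≤ val le p Q L Y :=
  Finset.inf'_le _ (Finset.mem_powerset.mpr h)

theorem Rk_ex (le : V → V → Prop) (p : V → ℝ) (Q L : Finset V) :
    ∃ Y, Y ⊆ L ∧ Rk le p Q L = val le p Q L Y := by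
  obtain ⟨Y, hY, h⟩ := Finset.exists_mem_eq_inf' (s := L.powerset)
    ⟨∅, Finset.empty_mem_powerset L⟩ (fun Y => val le p Q L Y)
  exact ⟨Y, Finset.mem_powerset.mp hY, h⟩

theorem val_insert (le : V → V → Prop) (p : V → ℝ) (Q L Y : Finset V) (v : V) (hv : v ∉ L)
    (hY : v ∉ Y) : val le p Q (insert v L) Y = val le p Q L Y + p v := by
  unfold val
  have : (insert v L) \ Y = insert v (L \ Y) := by
    ext x; simp only [mem_sdiff, mem_insert]
    constructor
    · rintro ⟨h | h, h'⟩
      · exact Or.inl h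
      · exact Or.inr ⟨h, h'⟩
    · rintro (h | ⟨h, h'⟩)
      · subst h; exact ⟨Or.inl rfl, hY⟩
      · exact ⟨Or.inr h, h'⟩
  rw [this, Finset.sum_insert (by simp [hv])]
  ring

theorem Rk_insert_le (le : V → V → Prop) (p : V → ℝ) (Q L : Finset V) (v : V) (hv : v ∉ L) :
    Rk le p Q (insert v L) ≤ Rk le p Q L + p v := by
  obtain ⟨Y, hY, h⟩ := Rk_ex le p Q L
  rw [h, ← val_insert le p Q L Y v hv (fun h' => hv (hY h'))]
  exact Rk_le _ _ _ _ _ (hY.trans (Finset.subset_insert _ _))

theorem sum_ind (p : V → ℝ) (S : Finset V) : ∑ x ∈ S, p x = ∑ x, if x ∈ S then p x else 0 := by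
  simp

theorem F3 (le : V → V → Prop) (p : V → ℝ) (hp : ∀ x, 0 ≤ p x) (Q L Q' L' : Finset V) (v : V)
    (hv : v ∉ L) (hv' : v ∉ L')
    (h : ∀ z ∈ Q', ∀ y ∈ insert v L, le z y → z ∈ Q ∧ y ∈ insert v L') :
    Rk le p Q' (insert v L') + Rk le p Q L ≤ Rk le p Q (insert v L) + Rk le p Q' L' := by
  obtain ⟨Y1, hY1, e1⟩ := Rk_ex le p Q (insert v L)
  obtain ⟨Y2, hY2, e2⟩ := Rk_ex le p Q' L'
  rw [e1, e2]
  by_cases hvY : v ∈ Y1
  · set Y3 := Y2 ∪ (Y1 ∩ insert v L') with hY3
    set Y4 := Y1.filter (fun y => y ≠ v ∧ (y ∉ L' ∨ y ∈ Y2)) with hY4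
    have s3 : Y3 ⊆ insert v L' := by
      intro x hx
      simp only [hY3, mem_union, mem_inter] at hx
      rcases hx with hx | hx
      · exact Finset.mem_insert_of_mem (hY2 hx)
      · exact hx.2
    have s4 : Y4 ⊆ L := by
      intro x hx
      simp only [hY4, mem_filter] at hx
      have := hY1 hx.1
      rcases Finset.mem_insert.mp this with h' | h'
      · exact absurd h' hx.2.1
      · exact h'
    have k3 := Rk_le le p Q' (insert v L') Y3 s3
    have k4 := Rk_le le p Q L Y4 s4
    have key : val le p Q' (insert v L') Y3 + val le p Q L Y4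
        ≤ val le p Q (insert v L) Y1 + val le p Q' L' Y2 := by
      unfold val
      have a1 : ∑ z ∈ Q'.filter (fun z => ∃ y ∈ Y3, le z y), p z
          + ∑ z ∈ Q.filter (fun z => ∃ y ∈ Y4, le z y), p z
          ≤ ∑ z ∈ Q.filter (fun z => ∃ y ∈ Y1, le z y), p z
          + ∑ z ∈ Q'.filter (fun z => ∃ y ∈ Y2, le z y), p z := by
        rw [sum_ind p (Q'.filter (fun z => ∃ y ∈ Y3, le z y)),
          sum_ind p (Q.filter (fun z => ∃ y ∈ Y4, le z y)),
          sum_ind p (Q.filter (fun z => ∃ y ∈ Y1, le z y)),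
          sum_ind p (Q'.filter (fun z => ∃ y ∈ Y2, le z y)),
          ← Finset.sum_add_distrib, ← Finset.sum_add_distrib]
        apply Finset.sum_le_sum
        intro z _
        have hpz := hp z
        -- facts
        have f4 : z ∈ Q.filter (fun z => ∃ y ∈ Y4, le z y) →
            z ∈ Q.filter (fun z => ∃ y ∈ Y1, le z y) := by
          intro hz
          simp only [mem_filter] at hz ⊢
          obtain ⟨hzQ, y, hy, hle⟩ := hz
          exact ⟨hzQ, y, (Finset.mem_filter.mp hy).1, hle⟩
        have f3 : z ∈ Q'.filter (fun z => ∃ y ∈ Y3, le z y) →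
            z ∈ Q'.filter (fun z => ∃ y ∈ Y2, le z y) ∨
            z ∈ Q.filter (fun z => ∃ y ∈ Y1, le z y) := by
          intro hz
          simp only [mem_filter] at hz ⊢
          obtain ⟨hzQ, y, hy, hle⟩ := hz
          simp only [hY3, mem_union, mem_inter] at hy
          rcases hy with hy | hy
          · exact Or.inl ⟨hzQ, y, hy, hle⟩
          · exact Or.inr ⟨(h z hzQ y (hY1 hy.1) hle).1, y, hy.1, hle⟩
        have f5 : z ∈ Q'.filter (fun z => ∃ y ∈ Y3, le z y) →
            z ∈ Q.filter (fun z => ∃ y ∈ Y4, le z y) →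
            z ∈ Q'.filter (fun z => ∃ y ∈ Y2, le z y) := by
          intro hz hz4
          simp only [mem_filter] at hz hz4 ⊢
          obtain ⟨hzQ', _⟩ := hz
          obtain ⟨hzQ, y, hy, hle⟩ := hz4
          simp only [hY4, mem_filter] at hy
          refine ⟨hzQ', ?_⟩
          rcases hy.2.2 with h' | h'
          · exfalso
            have := (h z hzQ' y (hY1 hy.1) hle).2
            rcases Finset.mem_insert.mp this with h'' | h''
            · exact hy.2.1 h''
            · exact h' h''
          · exact ⟨y, h', hle⟩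
        by_cases c3 : z ∈ Q'.filter (fun z => ∃ y ∈ Y3, le z y) <;>
        by_cases c4 : z ∈ Q.filter (fun z => ∃ y ∈ Y4, le z y) <;>
        by_cases c1 : z ∈ Q.filter (fun z => ∃ y ∈ Y1, le z y) <;>
        by_cases c2 : z ∈ Q'.filter (fun z => ∃ y ∈ Y2, le z y) <;>
        simp only [c1, c2, c3, c4, if_true, if_false] <;>
        first
          | linarith
          | (exfalso; tauto)
      have a2 : ∑ x ∈ (insert v L') \ Y3, p x + ∑ x ∈ L \ Y4, p x
          ≤ ∑ x ∈ (insert v L) \ Y1, p x + ∑ x ∈ L' \ Y2, p x := by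
        rw [sum_ind p ((insert v L') \ Y3), sum_ind p (L \ Y4),
          sum_ind p ((insert v L) \ Y1), sum_ind p (L' \ Y2),
          ← Finset.sum_add_distrib, ← Finset.sum_add_distrib]
        apply Finset.sum_le_sum
        intro x _
        have hpx := hp x
        by_cases xv : x = v
        · subst xv
          have : x ∉ (insert x L') \ Y3 := by
            simp only [mem_sdiff, not_and, not_not]
            intro _
            simp only [hY3, mem_union, mem_inter]
            exact Or.inr ⟨hvY, Finset.mem_insert_self _ _⟩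
          have h2 : x ∉ L \ Y4 := by simp [hv]
          simp only [this, h2, if_false]
          have := hp x
          split_ifs <;> linarith
        · have i1 : x ∈ (insert v L') \ Y3 ↔ (x ∈ L' ∧ x ∉ Y2 ∧ x ∉ Y1) := by
            simp only [hY3, mem_sdiff, mem_insert, mem_union, mem_inter, xv, false_or]
            tauto
          have i2 : x ∈ L \ Y4 ↔ (x ∈ L ∧ ¬ (x ∈ Y1 ∧ (x ∉ L' ∨ x ∈ Y2))) := by
            simp only [hY4, mem_sdiff, mem_filter, ne_eq, xv, not_false_eq_true, true_and]
          have i3 : x ∈ (insert v L) \ Y1 ↔ (x ∈ L ∧ x ∉ Y1) := by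
            simp only [mem_sdiff, mem_insert, xv, false_or]
          have i4 : x ∈ L' \ Y2 ↔ (x ∈ L' ∧ x ∉ Y2) := by
            simp only [mem_sdiff]
          have hx1 : x ∈ Y1 → x ∈ L := by
            intro hx
            rcases Finset.mem_insert.mp (hY1 hx) with h' | h'
            · exact absurd h' xv
            · exact h'
          have hx2 : x ∈ Y2 → x ∈ L' := fun hx => hY2 hx
          rw [if_congr i1 rfl rfl, if_congr i2 rfl rfl, if_congr i3 rfl rfl, if_congr i4 rfl rfl]
          by_cases c1 : x ∈ Y1 <;> by_cases c2 : x ∈ Y2 <;> by_cases c3 : x ∈ L <;>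
          by_cases c4 : x ∈ L' <;>
          simp only [c1, c2, c3, c4, not_true_eq_false, not_false_eq_true, and_true, and_false,
            true_and, false_and, or_true, or_false, true_or, false_or, if_true, if_false] <;>
          first
            | linarith
            | (exfalso; tauto)
      linarith
    linarith
  · have s1 : Y1 ⊆ L := by
      intro x hx
      rcases Finset.mem_insert.mp (hY1 hx) with h' | h'
      · exact absurd (h' ▸ hx) hvY
      · exact h'
    rw [val_insert le p Q L Y1 v hv hvY]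
    have k3 := Rk_le le p Q' (insert v L') Y2 (hY2.trans (Finset.subset_insert _ _))
    rw [val_insert le p Q' L' Y2 v hv' (fun h' => hv' (hY2 h'))] at k3
    have k4 := Rk_le le p Q L Y1 s1
    linarith

/-! ## F4 : layer cake -/

theorem F4 (le : V → V → Prop) (w : V → ℝ) (hw : ∀ x, 0 ≤ w x) (L S : Finset V)
    (hall : ∀ T ⊆ L, ∑ u ∈ T, w u ≤ ∑ u' ∈ S.filter (fun u' => ∃ u ∈ T, le u u'), w u')
    (n : ℕ) (e e' : V → ℝ) (he : ∀ u ∈ L, 0 ≤ e u) (he' : ∀ u ∈ S, 0 ≤ e' u)
    (hm : ∀ u ∈ L, ∀ u' ∈ S, le u u' → e u ≤ e' u')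
    (hn : (L.filter (fun u => 0 < e u)).card ≤ n) :
    ∑ u ∈ L, w u * e u ≤ ∑ u' ∈ S, w u' * e' u' := by
  induction n generalizing e e' with
  | zero =>
    have h0 : L.filter (fun u => 0 < e u) = ∅ := by
      apply Finset.card_eq_zero.mp; omega
    have : ∑ u ∈ L, w u * e u = 0 := by
      apply Finset.sum_eq_zero
      intro u hu
      have : ¬ 0 < e u := by
        intro h
        have : u ∈ L.filter (fun u => 0 < e u) := Finset.mem_filter.mpr ⟨hu, h⟩
        rw [h0] at this
        simp at this
      have : e u = 0 := le_antisymm (not_lt.mp this) (he u hu)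
      rw [this, mul_zero]
    rw [this]
    apply Finset.sum_nonneg
    intro u hu
    exact mul_nonneg (hw u) (he' u hu)
  | succ n ih =>
    by_cases hTe : L.filter (fun u => 0 < e u) = ∅
    · apply ih e e' he he' hm
      rw [hTe]; simp
    set T := L.filter (fun u => 0 < e u) with hT
    have hTn : T.Nonempty := Finset.nonempty_iff_ne_empty.mpr hTe
    obtain ⟨u0, hu0, hmin⟩ := Finset.exists_min_image T e hTn
    set m := e u0 with hmdef
    have hmpos : 0 < m := (Finset.mem_filter.mp hu0).2
    set e1 : V → ℝ := fun u => if u ∈ T then e u - m else e u with he1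
    set N : Finset V := S.filter (fun u' => ∃ u ∈ T, le u u') with hN
    set e1' : V → ℝ := fun u => if u ∈ N then e' u - m else e' u with he1'
    have hTL : T ⊆ L := Finset.filter_subset _ _
    have b1 : ∀ u ∈ L, 0 ≤ e1 u := by
      intro u hu
      simp only [he1]
      split_ifs with h
      · have := hmin u h; linarith
      · exact he u hu
    have b2 : ∀ u ∈ S, 0 ≤ e1' u := by
      intro u hu
      simp only [he1']
      split_ifs with h
      · obtain ⟨_, t, ht, hle⟩ := Finset.mem_filter.mp h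
        have h1 := hmin t ht
        have h2 := hm t (hTL ht) u hu hle
        linarith
      · exact he' u hu
    have b3 : ∀ u ∈ L, ∀ u' ∈ S, le u u' → e1 u ≤ e1' u' := by
      intro u hu u' hu' hle
      by_cases h : u ∈ T
      · have hN' : u' ∈ N := Finset.mem_filter.mpr ⟨hu', u, h, hle⟩
        simp only [he1, he1', h, hN', if_true]
        have := hm u hu u' hu' hle
        linarith
      · have : e1 u = 0 := by
          simp only [he1, h, if_false]
          have h' : ¬ 0 < e u := fun h' => h (Finset.mem_filter.mpr ⟨hu, h'⟩)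
          exact le_antisymm (not_lt.mp h') (he u hu)
        rw [this]
        exact b2 u' hu'
    have b4 : (L.filter (fun u => 0 < e1 u)).card ≤ n := by
      have hsub : L.filter (fun u => 0 < e1 u) ⊆ T.erase u0 := by
        intro u hu
        obtain ⟨huL, hpos⟩ := Finset.mem_filter.mp hu
        have huT : u ∈ T := by
          by_contra h
          simp only [he1, h, if_false] at hpos
          exact h (Finset.mem_filter.mpr ⟨huL, hpos⟩)
        refine Finset.mem_erase.mpr ⟨?_, huT⟩
        rintro rfl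
        simp only [he1, huT, if_true] at hpos
        linarith
      have := Finset.card_le_card hsub
      rw [Finset.card_erase_of_mem hu0] at this
      omega
    have hI := ih e1 e1' b1 b2 b3 b4
    have c1 : ∑ u ∈ L, w u * e u = ∑ u ∈ L, w u * e1 u + m * ∑ u ∈ T, w u := by
      have : ∑ u ∈ T, w u = ∑ u ∈ L, if u ∈ T then w u else 0 := by
        rw [← Finset.sum_filter]
        congr 1
        ext x
        simp only [mem_filter]
        exact ⟨fun h => ⟨hTL h, h⟩, fun h => h.2⟩
      rw [this, Finset.mul_sum, ← Finset.sum_add_distrib]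
      apply Finset.sum_congr rfl
      intro u _
      simp only [he1]
      split_ifs <;> ring
    have c2 : ∑ u ∈ S, w u * e' u = ∑ u ∈ S, w u * e1' u + m * ∑ u ∈ N, w u := by
      have : ∑ u ∈ N, w u = ∑ u ∈ S, if u ∈ N then w u else 0 := by
        rw [← Finset.sum_filter]
        congr 1
        ext x
        simp only [mem_filter]
        exact ⟨fun h => ⟨(Finset.mem_filter.mp h).1, h⟩, fun h => h.2⟩
      rw [this, Finset.mul_sum, ← Finset.sum_add_distrib]
      apply Finset.sum_congr rfl
      intro u _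
      simp only [he1']
      split_ifs <;> ring
    have c3 := hall T hTL
    have c4 : m * ∑ u ∈ T, w u ≤ m * ∑ u ∈ N, w u := mul_le_mul_of_nonneg_left c3 hmpos.le
    linarith

end Vale.Agent.P038.H749
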