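import Vale.Agent.P038.H749.LemR

/-!
# Lemma R, assembly (helper749)
-/

namespace Vale.Agent.P038.H749

open Finset
open scoped Classical

variable {V : Type*} [Fintype V]

/-- `(v,u)` in `l* H \ l* B` -/
def Gl (le : V → V → Prop) (B H : V → V → Prop) (v u : V) : Prop :=
  (∀ z, le z v → H z u) ∧ ∃ z, le z v ∧ ¬ B z u

/-- `(z,u')` in `r H \ r B` -/
def Gr (le : V → V → Prop) (B H : V → V → Prop) (z u' : V) : Prop :=
  (∃ u, le u u' ∧ H z u) ∧ ∀ u, le u u' → ¬ B z u

/-- `(v,u')` in `r l* H \ l* r B` -/
def Gs (le : V → V → Prop) (B H : V → V → Prop) (v u' : V) : Prop :=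
  (∃ u, le u u' ∧ ∀ z, le z v → H z u) ∧ ∃ z, le z v ∧ ∀ u, le u u' → ¬ B z u

theorem F1 (le : V → V → Prop) (B H : V → V → Prop) {v u z u' : V}
    (h1 : Gl le B H v u) (h2 : Gr le B H z u') (hz : le z v) (hu : le u u') :
    (H z u ∧ ¬ B z u) ∧ Gs le B H v u' :=
  ⟨⟨h1.1 z hz, h2.2 u hu⟩, ⟨u, hu, h1.1⟩, z, hz, h2.2⟩

theorem lemR (le : V → V → Prop) (p w : V → ℝ) (hp : ∀ x, 0 ≤ p x) (hw : ∀ x, 0 ≤ w x)
    (B H : V → V → Prop)
    (ROW : ∀ z, ∀ T : Finset V, (∀ u ∈ T, H z u ∧ ¬ B z u) →
      ∑ u ∈ T, w u ≤ ∑ u' ∈ univ.filter (fun u' => Gr le B H z u' ∧ ∃ u ∈ T, le u u'), w u')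
    (COL : ∀ u, ∀ T : Finset V, (∀ z ∈ T, H z u ∧ ¬ B z u) →
      ∑ z ∈ T, p z ≤ ∑ v ∈ univ.filter (fun v => Gl le B H v u ∧ ∃ z ∈ T, le z v), p v) :
    ∑ u, w u * ∑ z ∈ univ.filter (fun z => Gr le B H z u), p z
      + ∑ u, w u * ∑ v ∈ univ.filter (fun v => Gl le B H v u), p v
    ≤ ∑ u, w u * ∑ z ∈ univ.filter (fun z => H z u ∧ ¬ B z u), p z
      + ∑ u, w u * ∑ v ∈ univ.filter (fun v => Gs le B H v u), p v := by
  -- F2
  have F2 : ∀ v, ∀ T : Finset V, (∀ u ∈ T, Gl le B H v u) →
      ∑ u ∈ T, w u ≤ ∑ u' ∈ univ.filter (fun u' => Gs le B H v u' ∧ ∃ u ∈ T, le u u'), w u' := by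
    intro v T hT
    apply hall_glue le w hw (fun z u => H z u ∧ ¬ B z u) (fun z u' => Gr le B H z u')
      (fun u' => Gs le B H v u') ROW T.card T le_rfl (fun z => le z v)
    · intro u hu
      obtain ⟨z, hz, hB⟩ := (hT u hu).2
      exact ⟨z, hz, (hT u hu).1 z hz, hB⟩
    · intro z hz u hu u' hr hle
      exact F1 le B H (hT u hu) hr hz hle
  -- F2'
  have F2' : ∀ u', ∀ T : Finset V, (∀ z ∈ T, Gr le B H z u') →
      ∑ z ∈ T, p z ≤ ∑ v ∈ univ.filter (fun v => Gs le B H v u' ∧ ∃ z ∈ T, le z v), p v := by
    intro u' T hT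
    apply hall_glue le p hp (fun u z => H z u ∧ ¬ B z u) (fun u v => Gl le B H v u)
      (fun v => Gs le B H v u') COL T.card T le_rfl (fun u => le u u')
    · intro z hz
      obtain ⟨u, hu, hH⟩ := (hT z hz).1
      exact ⟨u, hu, hH, (hT z hz).2 u hu⟩
    · intro u hu z hz v hl hle
      exact F1 le B H hl (hT z hz) hle hu
  -- induction
  have key : ∀ P : Finset V,
      ∑ u, w u * (∑ v ∈ P.filter (fun v => Gl le B H v u), p v
        - Rk le p (univ.filter (fun z => H z u ∧ ¬ B z u)) (P.filter (fun v => Gl le B H v u)))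
      ≤ ∑ u, w u * (∑ v ∈ P.filter (fun v => Gs le B H v u), p v
        - Rk le p (univ.filter (fun z => Gr le B H z u)) (P.filter (fun v => Gs le B H v u))) := by
    intro P
    induction P using Finset.induction_on with
    | empty =>
      have h0 : ∀ Q : Finset V, Rk le p Q ∅ = 0 := by
        intro Q
        obtain ⟨Y, hY, h⟩ := Rk_ex le p Q ∅
        have : Y = ∅ := Finset.subset_empty.mp hY
        rw [h, this]
        simp [val]
      simp [h0]
    | insert v P hv ih =>
      set Q : V → Finset V := fun u => univ.filter (fun z => H z u ∧ ¬ B z u) with hQ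
      set Q' : V → Finset V := fun u => univ.filter (fun z => Gr le B H z u) with hQ'
      set L : V → Finset V := fun u => P.filter (fun v => Gl le B H v u) with hL
      set L' : V → Finset V := fun u => P.filter (fun v => Gs le B H v u) with hL'
      set e : V → ℝ := fun u => p v - (Rk le p (Q u) (insert v (L u)) - Rk le p (Q u) (L u))
        with he
      set e' : V → ℝ := fun u => p v - (Rk le p (Q' u) (insert v (L' u)) - Rk le p (Q' u) (L' u))
        with he'
      have hvL : ∀ u, v ∉ L u := fun u h => hv (Finset.mem_filter.mp h).1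
      have hvL' : ∀ u, v ∉ L' u := fun u h => hv (Finset.mem_filter.mp h).1
      have e0 : ∀ u, 0 ≤ e u := by
        intro u
        have := Rk_insert_le le p (Q u) (L u) v (hvL u)
        simp only [he]; linarith
      have e0' : ∀ u, 0 ≤ e' u := by
        intro u
        have := Rk_insert_le le p (Q' u) (L' u) v (hvL' u)
        simp only [he']; linarith
      have emono : ∀ u ∈ univ.filter (fun u => Gl le B H v u),
          ∀ u' ∈ univ.filter (fun u' => Gs le B H v u'), le u u' → e u ≤ e' u' := by
        intro u hu u' hu' hle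
        have hu1 := (Finset.mem_filter.mp hu).2
        have hu2 := (Finset.mem_filter.mp hu').2
        have := F3 le p hp (Q u) (L u) (Q' u') (L' u') v (hvL u) (hvL' u') (by
          intro z hz y hy hzy
          have hz' := (Finset.mem_filter.mp hz).2
          have hyl : Gl le B H y u := by
            rcases Finset.mem_insert.mp hy with h | h
            · rw [h]; exact hu1
            · exact (Finset.mem_filter.mp h).2
          have hyP : y = v ∨ y ∈ P := by
            rcases Finset.mem_insert.mp hy with h | h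
            · exact Or.inl h
            · exact Or.inr (Finset.mem_filter.mp h).1
          obtain ⟨g1, g2⟩ := F1 le B H hyl hz' hzy hle
          refine ⟨Finset.mem_filter.mpr ⟨Finset.mem_univ _, g1⟩, ?_⟩
          rcases hyP with h | h
          · rw [h]; exact Finset.mem_insert_self _ _
          · exact Finset.mem_insert_of_mem (Finset.mem_filter.mpr ⟨h, g2⟩))
        simp only [he, he']
        linarith
      have hinc := F4 le w hw (univ.filter (fun u => Gl le B H v u))
        (univ.filter (fun u' => Gs le B H v u')) (by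
          intro T hT
          have := F2 v T (fun u hu => (Finset.mem_filter.mp (hT hu)).2)
          rw [Finset.filter_filter]
          exact this) _ e e' (fun u _ => e0 u) (fun u _ => e0' u) emono le_rfl
      -- rewrite
      have r1 : ∀ u, w u * (∑ x ∈ (insert v P).filter (fun v => Gl le B H v u), p x
            - Rk le p (Q u) ((insert v P).filter (fun v => Gl le B H v u)))
          = w u * (∑ x ∈ L u, p x - Rk le p (Q u) (L u))
            + (if Gl le B H v u then w u * e u else 0) := by
        intro u
        by_cases h : Gl le B H v u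
        · rw [Finset.filter_insert, if_pos h, if_pos h, Finset.sum_insert (hvL u)]
          simp only [he]
          ring
        · rw [Finset.filter_insert, if_neg h, if_neg h]
          ring
      have r2 : ∀ u, w u * (∑ x ∈ (insert v P).filter (fun v => Gs le B H v u), p x
            - Rk le p (Q' u) ((insert v P).filter (fun v => Gs le B H v u)))
          = w u * (∑ x ∈ L' u, p x - Rk le p (Q' u) (L' u))
            + (if Gs le B H v u then w u * e' u else 0) := by
        intro u
        by_cases h : Gs le B H v u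
        · rw [Finset.filter_insert, if_pos h, if_pos h, Finset.sum_insert (hvL' u)]
          simp only [he']
          ring
        · rw [Finset.filter_insert, if_neg h, if_neg h]
          ring
      rw [Finset.sum_congr rfl (fun u _ => r1 u), Finset.sum_congr rfl (fun u _ => r2 u),
        Finset.sum_add_distrib, Finset.sum_add_distrib, ← Finset.sum_filter, ← Finset.sum_filter]
      exact add_le_add ih hinc
  have hU := key univ
  have a1 : ∀ u, Rk le p (univ.filter (fun z => H z u ∧ ¬ B z u))
      (univ.filter (fun v => Gl le B H v u)) ≤ ∑ z ∈ univ.filter (fun z => H z u ∧ ¬ B z u), p z := by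
    intro u
    refine (Rk_le le p _ _ _ (Finset.Subset.refl _)).trans ?_
    unfold val
    rw [Finset.sdiff_self, Finset.sum_empty, add_zero]
    apply Finset.sum_le_sum_of_subset_of_nonneg (Finset.filter_subset _ _)
    intro x _ _; exact hp x
  have a2 : ∀ u, ∑ z ∈ univ.filter (fun z => Gr le B H z u), p z ≤
      Rk le p (univ.filter (fun z => Gr le B H z u)) (univ.filter (fun v => Gs le B H v u)) := by
    intro u
    obtain ⟨Y, hY, h⟩ := Rk_ex le p (univ.filter (fun z => Gr le B H z u))
      (univ.filter (fun v => Gs le B H v u))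
    rw [h]
    unfold val
    have hsplit := Finset.sum_filter_add_sum_filter_not (univ.filter (fun z => Gr le B H z u))
      (fun z => ∃ y ∈ Y, le z y) p
    have hT := F2' u ((univ.filter (fun z => Gr le B H z u)).filter (fun z => ¬ ∃ y ∈ Y, le z y))
      (fun z hz => (Finset.mem_filter.mp (Finset.mem_filter.mp hz).1).2)
    have hsub : ∑ z ∈ (univ.filter (fun z => Gr le B H z u)).filter (fun z => ¬ ∃ y ∈ Y, le z y),
        p z ≤ ∑ x ∈ (univ.filter (fun v => Gs le B H v u)) \ Y, p x := by
      refine hT.trans ?_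
      apply Finset.sum_le_sum_of_subset_of_nonneg
      · intro x hx
        obtain ⟨_, hx1, z, hz, hzx⟩ := Finset.mem_filter.mp hx
        refine Finset.mem_sdiff.mpr ⟨Finset.mem_filter.mpr ⟨Finset.mem_univ _, hx1⟩, ?_⟩
        intro hxY
        exact (Finset.mem_filter.mp hz).2 ⟨x, hxY, hzx⟩
      · intro x _ _; exact hp x
    linarith
  have b1 : ∑ u, w u * (∑ v ∈ univ.filter (fun v => Gl le B H v u), p v
        - ∑ z ∈ univ.filter (fun z => H z u ∧ ¬ B z u), p z)
      ≤ ∑ u, w u * (∑ v ∈ univ.filter (fun v => Gl le B H v u), p v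
        - Rk le p (univ.filter (fun z => H z u ∧ ¬ B z u)) (univ.filter (fun v => Gl le B H v u))) := by
    apply Finset.sum_le_sum
    intro u _
    apply mul_le_mul_of_nonneg_left _ (hw u)
    have := a1 u
    linarith
  have b2 : ∑ u, w u * (∑ v ∈ univ.filter (fun v => Gs le B H v u), p v
        - Rk le p (univ.filter (fun z => Gr le B H z u)) (univ.filter (fun v => Gs le B H v u)))
      ≤ ∑ u, w u * (∑ v ∈ univ.filter (fun v => Gs le B H v u), p v
        - ∑ z ∈ univ.filter (fun z => Gr le B H z u), p z) := by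
    apply Finset.sum_le_sum
    intro u _
    apply mul_le_mul_of_nonneg_left _ (hw u)
    have := a2 u
    linarith
  simp only [mul_sub, Finset.sum_sub_distrib] at b1 b2 hU
  linarith

end Vale.Agent.P038.H749
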